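import Crest.Agent.R269.V.V1A

/-!
# Row 269, block V1: viscosity subsolutions are distributional subsolutions
-/

set_option autoImplicit false
set_option linter.unusedSectionVars false

noncomputable section

namespace Crest.Agent.R269.V1

open Set Metric Filter Topology MeasureTheory
open scoped ContDiff Manifold

variable {E ι : Type} [NormedAddCommGroup E] [NormedSpace ℝ E] [Fintype ι] (e : ι → E)
  [FiniteDimensional ℝ E] [MeasurableSpace E] [BorelSpace E] (μ : Measure E) [μ.IsAddHaarMeasure]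

theorem steps {t ε : ℝ} (ht : 0 < t) (hε : 0 < ε) {P : ℝ → Prop} (hP : ∀ᶠ s in 𝓝 (0 : ℝ), P s) :
    ∃ (N : ℕ) (s : ℝ), P s ∧ N * (kap ι * s ^ 2) = t ∧ kap ι * s ^ 2 ≤ ε := by
  have hk := kap_pos (ι := ι)
  have h0 : Tendsto (fun N : ℕ => t / N) atTop (𝓝 0) := tendsto_const_div_atTop_nhds_zero_nat t
  have h1 : Tendsto (fun N : ℕ => √(t / N / kap ι)) atTop (𝓝 0) := by
    simpa using (h0.div_const (kap ι)).sqrt
  obtain ⟨N, a1, a2, a3⟩ := ((h1.eventually hP).and ((h0.eventually (ge_mem_nhds hε)).and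
    (eventually_gt_atTop 0))).exists
  have a4 : (0 : ℝ) < N := by exact_mod_cast a3
  have a5 : kap ι * √(t / N / kap ι) ^ 2 = t / N := by
    rw [Real.sq_sqrt (by positivity)]; field_simp
  refine ⟨N, _, a1, ?_, by rw [a5]; exact a2⟩
  rw [a5]; field_simp

theorem core {φ : E → ℝ} {K : Set E} (hK : IsCompact K) (husc : UpperSemicontinuousOn φ K) {c : ℝ}
    (h : ∀ w ∈ interior K, ∀ q : E → ℝ, ContDiffAt ℝ 2 q w → IsLocalMax (fun x => φ x - q x) w → c ≤ LL e q w)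
    (hm : ∀ x ∈ K, φ x ≤ -1) {χ ρ f : E → ℝ} (hχ : CC χ) (hχ0 : ∀ x ∉ interior K, χ x = 0) (hρ : CC ρ)
    (hρ0 : ∀ x, 0 ≤ ρ x) (hρK : ∀ x ∉ K, ρ x = 0) (hf : CC f) (h0 : ∀ x ∈ K, φ x ≤ f x) {D : ℝ} (hD : 0 ≤ D)
    (hfD : ∀ x, |f x| ≤ D * χ x) (hi : Integrable (fun x => φ x * ρ x) μ) {C₁ C₂ t : ℝ} (hC₁ : 0 ≤ C₁) (hC₂ : 0 ≤ C₂)
    (H₁ : ∀ᶠ s in 𝓝 (0 : ℝ), ∀ x, |AA e s χ x - χ x| ≤ C₁ * (kap ι * s ^ 2))
    (H₂ : ∀ᶠ s in 𝓝 (0 : ℝ), ∀ x, |AA e s (LL e ρ) x - LL e ρ x| ≤ C₂ * (kap ι * s ^ 2))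
    (ht : 0 < t) (htc : D * (t * C₁) + |c| * t ≤ 1) :
    (∫ x, φ x * ρ x ∂μ) + c * t * ∫ x, ρ x ∂μ ≤
      (∫ x, f x * ρ x ∂μ) + t * (∫ x, f x * LL e ρ x ∂μ) + t ^ 2 * C₂ * (D * ∫ x, χ x ∂μ) := by
  have iρ : Integrable ρ μ := hρ.1.continuous.integrable_of_hasCompactSupport hρ.2
  have iχ : Integrable χ μ := hχ.1.continuous.integrable_of_hasCompactSupport hχ.2
  obtain ⟨C, hC, H₃⟩ := step_bd e (hf.ll e)
  have key : ∀ ε > 0, (∫ x, φ x * ρ x ∂μ) + (c * t - 2 * ε * t) * ∫ x, ρ x ∂μ ≤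
      (∫ x, f x * ρ x ∂μ) + t * (∫ x, f x * LL e ρ x ∂μ) + (ε * t + t ^ 2 * C₂) * (D * ∫ x, χ x ∂μ) := by
    intro ε hε
    obtain ⟨N, s, ⟨a1, a2, a3, a4, a5⟩, hN, hτε⟩ := steps (ι := ι) ht (div_pos hε (by positivity : 0 < C + 1))
      (H₁.and (H₂.and (H₃.and ((taylor e hf hε).and (taylor e hρ hε)))))
    set τ := kap ι * s ^ 2
    have hτ : 0 ≤ τ := by have := kap_pos (ι := ι); positivity
    have hCτ : C * τ ≤ ε := by
      rw [le_div_iff₀ (by positivity)] at hτε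
      nlinarith
    have mp := max_prin e s hK husc h hf hτ a4 a3 h0 (N := N) (by
      intro k hk x hx hxi
      have b0 : (k : ℝ) * τ ≤ t := hN ▸ mul_le_mul_of_nonneg_right (by exact_mod_cast hk) hτ
      have b1 := pow_le e s k (g := -f - D • χ) (a := 0) (fun x => by
        have := (abs_le.1 (hfD x)).1
        simp only [Pi.sub_apply, Pi.neg_apply, Pi.smul_apply, smul_eq_mul]; linarith) x
      rw [map_sub, map_neg, map_smul] at b1
      simp only [Pi.sub_apply, Pi.neg_apply, Pi.smul_apply, smul_eq_mul] at b1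
      have b2 := (abs_le.1 (pow_sub e s k a1 x)).2
      rw [hχ0 x hxi] at b2
      have b3 : D * (AA e s ^ k) χ x ≤ D * (t * C₁) :=
        mul_le_mul_of_nonneg_left (by nlinarith [mul_le_mul_of_nonneg_right b0 hC₁]) hD
      have b4 : c * (k * τ) ≤ |c| * t :=
        (mul_le_mul_of_nonneg_right (le_abs_self c) (by positivity)).trans
          (mul_le_mul_of_nonneg_left b0 (abs_nonneg c))
      have b5 : 0 ≤ (k : ℝ) * (ε * τ + τ * (C * τ)) := by positivity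
      have := hm x hx
      nlinarith) N le_rfl
    have c1 : (∫ x, φ x * ρ x ∂μ) + (c * t - 2 * ε * t) * ∫ x, ρ x ∂μ ≤ ∫ x, (AA e s ^ N) f x * ρ x ∂μ := by
      rw [← integral_const_mul, ← integral_add hi (iρ.const_mul _)]
      refine integral_mono (hi.add (iρ.const_mul _)) ((hf.pow e s N).int μ hρ.1.continuous) fun x => ?_
      by_cases hx : x ∈ K
      · have b1 := mp x hx
        have b2 : (N : ℝ) * (c * τ - ε * τ - τ * (C * τ)) = c * t - ε * t - t * (C * τ) := by rw [← hN]; ring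
        have b3 := mul_le_mul_of_nonneg_left hCτ ht.le
        have b4 : φ x + (c * t - 2 * ε * t) ≤ (AA e s ^ N) f x := by linarith
        have := mul_le_mul_of_nonneg_right b4 (hρ0 x)
        simp only
        linarith
      · simp [hρK x hx]
    rw [pow_adj e μ s N hf hρ] at c1
    refine c1.trans ?_
    have i1 := hf.int μ hρ.1.continuous
    have i2 := (hf.int μ (hρ.ll e).1.continuous).const_mul t
    have i3 : Integrable (fun x => f x * ρ x + t * (f x * LL e ρ x)) μ := i1.add i2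
    have i4 := (iχ.const_mul D).const_mul (ε * t + t ^ 2 * C₂)
    rw [← integral_const_mul, ← integral_const_mul, ← integral_const_mul, ← integral_add i1 i2, ← integral_add i3 i4]
    refine integral_mono (hf.int μ (hρ.pow e s N).1.continuous) (i3.add i4) fun x => ?_
    have b1 := pow_exp e s hτ (mul_nonneg hC₂ hτ) a5 a2 N x
    have b2 : (N : ℝ) * (ε * τ) + N ^ 2 * τ * (C₂ * τ) = ε * t + t ^ 2 * C₂ := by rw [← hN]; ring
    rw [hN, b2] at b1
    have b3 := mul_le_mul (hfD x) b1 (abs_nonneg _) ((abs_nonneg _).trans (hfD x))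
    rw [← abs_mul] at b3
    have b4 := (abs_le.1 b3).2
    simp only
    linarith
  have lim : Tendsto (fun ε : ℝ => ε * (t * (D * ∫ x, χ x ∂μ) + 2 * t * ∫ x, ρ x ∂μ)) (𝓝[>] 0) (𝓝 0) := by
    have : Continuous fun ε : ℝ => ε * (t * (D * ∫ x, χ x ∂μ) + 2 * t * ∫ x, ρ x ∂μ) := by fun_prop
    simpa using (this.tendsto 0).mono_left nhdsWithin_le_nhds
  rw [← sub_nonpos]
  refine ge_of_tendsto lim ?_
  filter_upwards [self_mem_nhdsWithin] with ε hε
  have := key ε hε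
  linarith

theorem approx {φ : E → ℝ} {K : Set E} (hK : IsClosed K) (husc : UpperSemicontinuousOn φ K)
    (hm : ∀ x ∈ K, φ x ≤ -1) : ∃ g : ℕ → E → ℝ, (∀ j, ContDiff ℝ ∞ (g j)) ∧ (∀ j, ∀ x ∈ K, φ x ≤ g j x ∧ g j x ≤ 0) ∧
      ∀ x ∈ K, Tendsto (fun j => g j x) atTop (𝓝 (φ x)) := by
  have key : ∀ δ : ℝ, 0 < δ → δ ≤ 1 → ∃ g : E → ℝ, ContDiff ℝ ∞ g ∧ ∀ x ∈ K, φ x ≤ g x ∧ g x ≤ 0 ∧
      ∀ a, (∀ y ∈ K, dist y x < δ → φ y ≤ a) → g x ≤ a + δ := by
    intro δ h0 h1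
    obtain ⟨g, hg⟩ := exists_contMDiffMap_forall_mem_convex_of_local_const (n := (⊤ : ℕ∞)) 𝓘(ℝ, E) (F := ℝ)
      (t := fun x => {r | x ∈ K → φ x ≤ r ∧ r ≤ 0 ∧ ∀ a, (∀ y ∈ K, dist y x < δ → φ y ≤ a) → r ≤ a + δ})
      (fun x => by
        rw [convex_iff_ordConnected]
        exact ⟨fun r hr r' hr' z hz hx => ⟨(hr hx).1.trans hz.1, hz.2.trans (hr' hx).2.1,
          fun a ha => hz.2.trans ((hr' hx).2.2 a ha)⟩⟩)
      (fun x => by
        by_cases hx : x ∈ K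
        · refine ⟨φ x + δ, ?_⟩
          have a1 := eventually_nhdsWithin_iff.1 (husc x hx (φ x + δ) (by linarith))
          filter_upwards [a1, ball_mem_nhds x h0] with y hy hy' hyK
          exact ⟨(hy hyK).le, by linarith [hm x hx], fun a ha => by
            linarith [ha x hx (by rw [dist_comm]; exact hy')]⟩
        · refine ⟨0, ?_⟩
          filter_upwards [hK.isOpen_compl.mem_nhds hx] with y hy hyK
          exact absurd hyK hy)
    exact ⟨g, g.contMDiff.contDiff, hg⟩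
  choose g h1 h2 using fun j : ℕ => key (1 / (j + 1)) (by positivity)
    (by rw [div_le_one (by positivity)]; linarith [(j.cast_nonneg : (0 : ℝ) ≤ j)])
  refine ⟨g, h1, fun j x hx => ⟨(h2 j x hx).1, (h2 j x hx).2.1⟩, fun x hx => ?_⟩
  refine tendsto_order.2 ⟨fun a ha => Eventually.of_forall fun j => ha.trans_le (h2 j x hx).1, fun a ha => ?_⟩
  have a0 : 0 < (a - φ x) / 2 := by linarith
  obtain ⟨δ, hδ, H⟩ := Metric.eventually_nhds_iff.1
    (eventually_nhdsWithin_iff.1 (husc x hx (φ x + (a - φ x) / 2) (by linarith)))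
  filter_upwards [tendsto_one_div_add_atTop_nhds_zero_nat.eventually (gt_mem_nhds (lt_min hδ a0))] with j hj
  have := (h2 j x hx).2.2 (φ x + (a - φ x) / 2) fun y hy hd => (H (hd.trans (hj.trans_le (min_le_left _ _))) hy).le
  linarith [hj.trans_le (min_le_right _ _)]

theorem main1 {φ : E → ℝ} {V : Set E} (hV : IsOpen V) (husc : UpperSemicontinuousOn φ V) {D : ℝ} (hD : 0 ≤ D)
    (hb : ∀ w ∈ V, -D ≤ φ w ∧ φ w ≤ -1) {c : ℝ}
    (h : ∀ w ∈ V, ∀ q : E → ℝ, ContDiffAt ℝ 2 q w → IsLocalMax (fun x => φ x - q x) w → c ≤ LL e q w)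
    {ρ : E → ℝ} (hρ : CC ρ) (hs : tsupport ρ ⊆ V) (h0 : ∀ x, 0 ≤ ρ x) :
    Integrable (fun x => φ x * LL e ρ x) μ ∧ c * ∫ x, ρ x ∂μ ≤ ∫ x, φ x * LL e ρ x ∂μ := by
  obtain ⟨K, hK, hK1, hK2⟩ := exists_compact_between hρ.2 hV hs
  obtain ⟨χ, x0, x1, x2⟩ := exists_contMDiffMap_zero_one_of_isClosed (n := (⊤ : ℕ∞)) 𝓘(ℝ, E)
    (isOpen_interior (s := K)).isClosed_compl (isClosed_tsupport ρ) (disjoint_compl_left_iff_subset.2 hK1)
  have x0' : ∀ x ∉ K, χ x = 0 := fun x hx => x0 fun hi => hx (interior_subset hi)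
  have hχ : CC χ := ⟨χ.contMDiff.contDiff, HasCompactSupport.intro hK x0'⟩
  obtain ⟨g, g1, g2, g3⟩ := approx hK.isClosed (husc.mono hK2) fun x hx => (hb x (hK2 hx)).2
  have hf : ∀ j, CC fun x => χ x * g j x := fun j => ⟨hχ.1.mul (g1 j), hχ.2.mul_right⟩
  have hfD : ∀ j x, |χ x * g j x| ≤ D * χ x := fun j x => by
    by_cases hx : x ∈ K
    · rw [abs_mul, abs_of_nonneg (x2 x).1, mul_comm]
      exact mul_le_mul_of_nonneg_right (abs_le.2 ⟨(hb x (hK2 hx)).1.trans (g2 j x hx).1, (g2 j x hx).2.trans hD⟩)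
        (x2 x).1
    · simp [x0' x hx]
  have conv : ∀ w : E → ℝ, CC w → (∀ x ∉ tsupport ρ, w x = 0) → Integrable (fun x => φ x * w x) μ ∧
      Tendsto (fun j => ∫ x, χ x * g j x * w x ∂μ) atTop (𝓝 (∫ x, φ x * w x ∂μ)) := by
    intro w hw hw0
    have a1 : ∀ j, AEStronglyMeasurable (fun x => χ x * g j x * w x) μ := fun j =>
      ((hf j).1.continuous.mul hw.1.continuous).aestronglyMeasurable
    have a2 : ∀ x, Tendsto (fun j => χ x * g j x * w x) atTop (𝓝 (φ x * w x)) := fun x => by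
      by_cases hx : x ∈ tsupport ρ
      · have : χ x = 1 := x1 hx
        simpa [this] using (g3 x (interior_subset (hK1 hx))).mul_const (w x)
      · simp [hw0 x hx]
    have a3 : Integrable (fun x => D * ‖w x‖) μ :=
      (hw.1.continuous.integrable_of_hasCompactSupport hw.2).norm.const_mul D
    have a4 : ∀ j x, ‖χ x * g j x * w x‖ ≤ D * ‖w x‖ := fun j x => by
      rw [norm_mul]
      exact mul_le_mul_of_nonneg_right ((hfD j x).trans (mul_le_of_le_one_right hD (x2 x).2)) (norm_nonneg _)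
    exact ⟨a3.mono' (aestronglyMeasurable_of_tendsto_ae atTop a1 (Eventually.of_forall a2))
      (Eventually.of_forall fun x => le_of_tendsto' (a2 x).norm fun j => a4 j x),
      tendsto_integral_of_dominated_convergence _ a1 a3 (fun j => Eventually.of_forall (a4 j))
        (Eventually.of_forall a2)⟩
  obtain ⟨i1, t1⟩ := conv ρ hρ fun x hx => image_eq_zero_of_notMem_tsupport hx
  obtain ⟨i2, t2⟩ := conv _ (hρ.ll e) fun x hx => LL_zero e hx
  refine ⟨i2, ?_⟩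
  obtain ⟨C₁, hC₁, H₁⟩ := step_bd e hχ
  obtain ⟨C₂, hC₂, H₂⟩ := step_bd e (hρ.ll e)
  have key : ∀ t, 0 < t → D * (t * C₁) + |c| * t ≤ 1 →
      c * (∫ x, ρ x ∂μ) - ∫ x, φ x * LL e ρ x ∂μ ≤ t * (C₂ * (D * ∫ x, χ x ∂μ)) := by
    intro t ht htc
    have := ge_of_tendsto' ((t1.add (t2.const_mul t)).add_const (t ^ 2 * C₂ * (D * ∫ x, χ x ∂μ))) fun j =>
      core e μ hK (husc.mono hK2) (fun w hw => h w (hK2 (interior_subset hw))) (fun x hx => (hb x (hK2 hx)).2)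
        hχ x0 hρ h0 (fun x hx => image_eq_zero_of_notMem_tsupport fun hi => hx (interior_subset (hK1 hi))) (hf j)
        (fun x hx => by have := g2 j x hx; have := x2 x; nlinarith [this.1, this.2]) hD (hfD j) i1 hC₁ hC₂ H₁ H₂ ht htc
    refine le_of_mul_le_mul_left ?_ ht
    linarith
  have lim : Tendsto (fun t : ℝ => t * (C₂ * (D * ∫ x, χ x ∂μ))) (𝓝[>] 0) (𝓝 0) := by
    have : Continuous fun t : ℝ => t * (C₂ * (D * ∫ x, χ x ∂μ)) := by fun_prop
    simpa using (this.tendsto 0).mono_left nhdsWithin_le_nhds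
  have sm : ∀ᶠ t in 𝓝 (0 : ℝ), D * (t * C₁) + |c| * t < 1 :=
    (by fun_prop : Continuous fun t : ℝ => D * (t * C₁) + |c| * t).continuousAt.eventually_lt continuousAt_const
      (by simp)
  rw [← sub_nonpos]
  refine ge_of_tendsto lim ?_
  filter_upwards [self_mem_nhdsWithin, nhdsWithin_le_nhds sm] with t ht htc
  exact key t ht (le_of_lt htc)

theorem main {φ : E → ℝ} {V : Set E} (hV : IsOpen V) (husc : UpperSemicontinuousOn φ V)
    (hb : ∃ B, ∀ w ∈ V, |φ w| ≤ B) {c : ℝ}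
    (h : ∀ w ∈ V, ∀ q : E → ℝ, ContDiffAt ℝ 2 q w → IsLocalMax (fun x => φ x - q x) w → c ≤ LL e q w)
    {ρ : E → ℝ} (hρ : CC ρ) (hs : tsupport ρ ⊆ V) (h0 : ∀ x, 0 ≤ ρ x) :
    c * ∫ x, ρ x ∂μ ≤ ∫ x, φ x * LL e ρ x ∂μ := by
  obtain ⟨B, hB⟩ := hb
  obtain ⟨i1, k⟩ := main1 e μ (φ := fun x => φ x + -(|B| + 1)) hV (husc.add upperSemicontinuousOn_const)
    (D := 2 * |B| + 1) (by positivity)
    (fun w hw => by have := abs_le.1 ((hB w hw).trans (le_abs_self B)); constructor <;> linarith) (c := c)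
    (fun w hw q hq hm => h w hw q hq (by filter_upwards [hm] with x hx; linarith)) hρ hs h0
  have i2 : Integrable (fun x => (|B| + 1) * LL e ρ x) μ :=
    ((hρ.ll e).1.continuous.integrable_of_hasCompactSupport (hρ.ll e).2).const_mul _
  have := integral_add i1 i2
  rw [integral_const_mul, int_LL e μ hρ, mul_zero, add_zero] at this
  rw [← this] at k
  convert k using 3
  ring

end Crest.Agent.R269.V1
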