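import Crest.Agent.R269.A.Levi
import Crest.Agent.R269.V.V1B

/-!
# Row 269, block V1: viscosity implies distributional (statements FROZEN; recipe in Blueprint.lean)
-/

set_option autoImplicit false
set_option linter.unusedSectionVars false
set_option linter.unusedVariables false

noncomputable section

namespace Crest.Agent.R269

open Set Metric Filter Topology MeasureTheory Matrix
open Crest.AlgGeometry.ProjEmb
open scoped InnerProductSpace ContDiff

/-- V1: viscosity inequalities hold in the sense of distributions. -/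
theorem stV1 {n : ℕ} {φ : Cn n → ℝ} {V : Set (Cn n)} (hV : IsOpen V) (husc : UpperSemicontinuousOn φ V)
    (hb : ∃ B, ∀ w ∈ V, |φ w| ≤ B) {v : Fin n → Cn n} (hv : LinearIndependent ℂ v) {c : ℝ}
    (h : ∀ w ∈ V, ∀ q : Cn n → ℝ, ContDiffAt ℝ 2 q w → IsLocalMax (fun x => φ x - q x) w → c ≤ ∑ j, levi q w (v j))
    {ρ : Cn n → ℝ} (hρ : ContDiff ℝ ∞ ρ) (hc : HasCompactSupport ρ) (hs : tsupport ρ ⊆ V) (h0 : ∀ x, 0 ≤ ρ x) :
    c * ∫ x, ρ x ≤ ∫ x, φ x * ∑ j, levi ρ x (v j) := by
  have key : ∀ (q : Cn n → ℝ) (x : Cn n), V1.LL (Sum.elim (fun j => (1 / 2 : ℝ) • v j)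
      (fun j => (1 / 2 : ℝ) • Complex.I • v j)) q x = ∑ j, levi q x (v j) := by
    intro q x
    rw [V1.LL, Fintype.sum_sum_type, ← Finset.sum_add_distrib]
    refine Finset.sum_congr rfl fun j _ => ?_
    simp only [Sum.elim_inl, Sum.elim_inr, map_smul, _root_.smul_apply, smul_eq_mul, levi]
    ring
  simp only [← key] at h ⊢
  exact V1.main _ volume hV husc hb h ⟨hρ, hc⟩ hs h0

end Crest.Agent.R269
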