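import Mathlib

/-!
# Row 269, block V1: a lazy random walk approximating a constant coefficient operator
-/

set_option autoImplicit false
set_option linter.unusedSectionVars false

noncomputable section

namespace Crest.Agent.R269.V1

open Set Metric Filter Topology MeasureTheory
open scoped ContDiff

variable {E ι : Type} [NormedAddCommGroup E] [NormedSpace ℝ E] [Fintype ι] (e : ι → E)

/-- the operator `∑ ∂ᵢ²` -/
def LL (g : E → ℝ) (x : E) : ℝ := ∑ i, fderiv ℝ (fderiv ℝ g) x (e i) (e i)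

def kap (ι : Type) [Fintype ι] : ℝ := 1 / (2 * Fintype.card ι + 1)

theorem kap_pos : 0 < kap ι := by unfold kap; positivity

theorem kap_mul : kap ι * (2 * Fintype.card ι + 1) = 1 := by unfold kap; field_simp

/-- one step of the walk -/
def AA {F : Type} [NormedAddCommGroup F] [NormedSpace ℝ F] (s : ℝ) : Module.End ℝ (E → F) where
  toFun g x := kap ι • (g x + ∑ i, (g (x + s • e i) + g (x + (-s) • e i)))
  map_add' g h := by
    ext x
    simp only [Pi.add_apply, Finset.sum_add_distrib, smul_add]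
    abel
  map_smul' r g := by
    ext x
    simp only [Pi.smul_apply, RingHom.id_apply, ← smul_add, ← Finset.smul_sum, smul_comm r]

theorem AA_apply {F : Type} [NormedAddCommGroup F] [NormedSpace ℝ F] (s : ℝ) (g : E → F) (x : E) :
    AA e s g x = kap ι • (g x + ∑ i, (g (x + s • e i) + g (x + (-s) • e i))) := rfl

theorem AA_le (s : ℝ) {g : E → ℝ} {a : ℝ} (h : ∀ x, g x ≤ a) (x : E) : AA e s g x ≤ a := by
  rw [AA_apply, smul_eq_mul]
  calc _ ≤ kap ι * (a + ∑ _i : ι, (a + a)) := by
        gcongr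
        · exact kap_pos.le
        all_goals exact h _
    _ = kap ι * (2 * Fintype.card ι + 1) * a := by
        rw [Finset.sum_const, Finset.card_univ, nsmul_eq_mul]; ring
    _ = a := by rw [kap_mul, one_mul]

theorem pow_le (s : ℝ) (k : ℕ) {g : E → ℝ} {a : ℝ} (h : ∀ x, g x ≤ a) (x : E) : (AA e s ^ k) g x ≤ a := by
  induction k generalizing x with
  | zero => exact h x
  | succ k ih => rw [pow_succ', Module.End.mul_apply]; exact AA_le e s ih x

theorem pow_abs (s : ℝ) (k : ℕ) {g : E → ℝ} {a : ℝ} (h : ∀ x, |g x| ≤ a) (x : E) : |(AA e s ^ k) g x| ≤ a := by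
  refine abs_le.2 ⟨?_, pow_le e s k (fun x => (abs_le.1 (h x)).2) x⟩
  have := pow_le e s k (g := -g) (a := a) (fun x => by have := (abs_le.1 (h x)).1; simp only [Pi.neg_apply]; linarith) x
  rw [map_neg, Pi.neg_apply] at this
  linarith

theorem pow_sub (s : ℝ) (k : ℕ) {g : E → ℝ} {a : ℝ} (h : ∀ x, |AA e s g x - g x| ≤ a) (x : E) :
    |(AA e s ^ k) g x - g x| ≤ k * a := by
  induction k with
  | zero => simp
  | succ k ih =>
    have := pow_abs e s k (g := AA e s g - g) h x
    rw [map_sub, ← Module.End.mul_apply, ← pow_succ, Pi.sub_apply] at this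
    have h2 := abs_sub_le ((AA e s ^ (k + 1)) g x) ((AA e s ^ k) g x) (g x)
    push_cast
    linarith

theorem fderiv_AA {F : Type} [NormedAddCommGroup F] [NormedSpace ℝ F] (s : ℝ) {g : E → F}
    (hg : Differentiable ℝ g) : fderiv ℝ (AA e s g) = AA e s (fderiv ℝ g) := by
  ext1 x
  have h : ∀ a, HasFDerivAt (fun x => g (x + a)) (fderiv ℝ g (x + a)) x := fun a =>
    (hasFDerivAt_comp_add_right a).2 (hg _).hasFDerivAt
  exact (((hg x).hasFDerivAt.add (HasFDerivAt.fun_sum fun i _ => (h _).add (h _))).const_smul (kap ι)).fderiv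

/-- smooth with compact support -/
def CC (g : E → ℝ) : Prop := ContDiff ℝ ∞ g ∧ HasCompactSupport g

theorem CC.aa (s : ℝ) {g : E → ℝ} (hg : CC g) : CC (AA e s g) := by
  have h1 : ∀ a, ContDiff ℝ ∞ fun x => g (x + a) := fun a => hg.1.comp (contDiff_id.add contDiff_const)
  have h2 : ∀ a, HasCompactSupport fun x => g (x + a) := fun a => hg.2.comp_homeomorph (Homeomorph.addRight a)
  refine ⟨(hg.1.add (ContDiff.sum fun i _ => (h1 _).add (h1 _))).const_smul (kap ι), ?_⟩
  have h3 : HasCompactSupport (∑ i, fun x => g (x + s • e i) + g (x + (-s) • e i)) :=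
    HasCompactSupport.finset_sum fun i _ => (h2 _).add (h2 _)
  have := (hg.2.add h3).smul_left (f := fun _ => kap ι)
  have e1 : AA e s g = (fun _ : E => kap ι) • (g + ∑ i, fun x => g (x + s • e i) + g (x + (-s) • e i)) := by
    ext x
    simp [AA_apply]
  rw [e1]
  exact this

theorem CC.pow (s : ℝ) (k : ℕ) {g : E → ℝ} (hg : CC g) : CC ((AA e s ^ k) g) := by
  induction k with
  | zero => exact hg
  | succ k ih => rw [pow_succ', Module.End.mul_apply]; exact ih.aa e s

theorem cd1 {F : Type} [NormedAddCommGroup F] [NormedSpace ℝ F] {g : E → F} (hg : ContDiff ℝ ∞ g) :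
    ContDiff ℝ ∞ (fderiv ℝ g) := hg.fderiv_right (m := ∞) le_rfl

theorem CC.ll {g : E → ℝ} (hg : CC g) : CC (LL e g) := by
  refine ⟨ContDiff.sum fun i _ => ((cd1 (cd1 hg.1)).clm_apply contDiff_const).clm_apply contDiff_const, ?_⟩
  exact ((hg.2.fderiv ℝ).fderiv ℝ).mono fun x hx h0 => hx (by simp [LL, h0])

theorem LL_zero {g : E → ℝ} {x : E} (hx : x ∉ tsupport g) : LL e g x = 0 := by
  have : fderiv ℝ (fderiv ℝ g) x = 0 := image_eq_zero_of_notMem_tsupport fun h =>
    hx (tsupport_fderiv_subset ℝ (tsupport_fderiv_subset ℝ h))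
  simp [LL, this]

theorem LL_AA (s : ℝ) {g : E → ℝ} (hg : CC g) : LL e (AA e s g) = AA e s (LL e g) := by
  ext x
  rw [LL, fderiv_AA e s (hg.1.differentiable (by simp)), fderiv_AA e s ((cd1 hg.1).differentiable (by simp))]
  simp only [AA_apply, LL, smul_apply, add_apply,
    sum_apply, ← Finset.smul_sum, Finset.sum_add_distrib]
  congr 3 <;> exact Finset.sum_comm

theorem LL_pow (s : ℝ) (k : ℕ) {g : E → ℝ} (hg : CC g) : LL e ((AA e s ^ k) g) = (AA e s ^ k) (LL e g) := by
  induction k with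
  | zero => rfl
  | succ k ih => rw [pow_succ', Module.End.mul_apply, Module.End.mul_apply, LL_AA e s (hg.pow e s k), ih]

theorem second_diff {g : E → ℝ} (hg : ContDiff ℝ ∞ g) (x v : E) {s η : ℝ}
    (h : ∀ r, |r| ≤ |s| → |fderiv ℝ (fderiv ℝ g) (x + r • v) v v - fderiv ℝ (fderiv ℝ g) x v v| ≤ η) :
    |g (x + s • v) + g (x + (-s) • v) - 2 * g x - s ^ 2 * fderiv ℝ (fderiv ℝ g) x v v| ≤ 2 * η * s ^ 2 := by
  have hη : 0 ≤ η := (abs_nonneg _).trans (h 0 (by simp))
  have l1 : ∀ r : ℝ, HasDerivAt (fun r : ℝ => x + r • v) v r := fun r => by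
    simpa using ((hasDerivAt_id r).smul_const v).const_add x
  have l2 : ∀ r : ℝ, HasDerivAt (fun r : ℝ => x + (-r) • v) (-v) r := fun r => by
    simpa using ((hasDerivAt_neg r).smul_const v).const_add x
  have d0 := hg.differentiable (by simp)
  have d1 := (cd1 hg).differentiable (by simp)
  set q := fderiv ℝ (fderiv ℝ g) x v v
  have a1 : ∀ r : ℝ, HasDerivAt (fun r : ℝ => g (x + r • v) + g (x + (-r) • v) - 2 * g x - r ^ 2 * q)
      (fderiv ℝ g (x + r • v) v - fderiv ℝ g (x + (-r) • v) v - 2 * r * q) r := fun r => by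
    have := ((((d0 _).hasFDerivAt.comp_hasDerivAt r (l1 r)).add
      ((d0 _).hasFDerivAt.comp_hasDerivAt r (l2 r))).sub_const (2 * g x)).sub ((hasDerivAt_pow 2 r).mul_const q)
    refine HasDerivAt.congr_deriv this ?_
    simp [sub_eq_add_neg]
  have a2 : ∀ r : ℝ, HasDerivAt (fun r : ℝ => fderiv ℝ g (x + r • v) v - fderiv ℝ g (x + (-r) • v) v - 2 * r * q)
      (fderiv ℝ (fderiv ℝ g) (x + r • v) v v + fderiv ℝ (fderiv ℝ g) (x + (-r) • v) v v - 2 * q) r := fun r => by
    have := ((((d1 _).hasFDerivAt.comp_hasDerivAt r (l1 r)).clm_apply (hasDerivAt_const r v)).sub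
      (((d1 _).hasFDerivAt.comp_hasDerivAt r (l2 r)).clm_apply (hasDerivAt_const r v))).sub
      (((hasDerivAt_id r).const_mul 2).mul_const q)
    refine HasDerivAt.congr_deriv this ?_
    simp
  have hc : Convex ℝ (closedBall (0 : ℝ) |s|) := convex_closedBall _ _
  have h0 : (0 : ℝ) ∈ closedBall (0 : ℝ) |s| := mem_closedBall_self (abs_nonneg _)
  have b2 : ∀ r ∈ closedBall (0 : ℝ) |s|,
      ‖fderiv ℝ g (x + r • v) v - fderiv ℝ g (x + (-r) • v) v - 2 * r * q‖ ≤ 2 * η * |s| := by
    intro r hr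
    have := hc.norm_image_sub_le_of_norm_hasDerivWithin_le (C := 2 * η) (fun r _ => (a2 r).hasDerivWithinAt)
      (fun r hr => by
        have hr' : |r| ≤ |s| := by simpa using hr
        have h1 := abs_le.1 (h r hr')
        have h2 := abs_le.1 (h (-r) (by rwa [abs_neg]))
        exact abs_le.2 ⟨by linarith, by linarith⟩) h0 hr
    have hr' : |r| ≤ |s| := by simpa using hr
    simp only [zero_smul, neg_zero, sub_self, mul_zero, zero_mul, sub_zero, Real.norm_eq_abs] at this ⊢
    exact this.trans (by gcongr)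
  have := hc.norm_image_sub_le_of_norm_hasDerivWithin_le (fun r _ => (a1 r).hasDerivWithinAt) b2 h0
    (y := s) (by simp)
  simp only [zero_smul, neg_zero, add_zero, Real.norm_eq_abs, sub_zero] at this
  rw [show g x + g x - 2 * g x - 0 ^ 2 * q = 0 by ring, sub_zero, mul_assoc, abs_mul_abs_self, ← sq] at this
  exact this

theorem taylor {g : E → ℝ} (hg : CC g) {ε : ℝ} (hε : 0 < ε) : ∀ᶠ s in 𝓝 (0 : ℝ), ∀ x,
    |AA e s g x - g x - kap ι * s ^ 2 * LL e g x| ≤ ε * (kap ι * s ^ 2) := by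
  have key : ∀ i, ∀ᶠ s in 𝓝 (0 : ℝ), ∀ x, |g (x + s • e i) + g (x + (-s) • e i) - 2 * g x -
      s ^ 2 * fderiv ℝ (fderiv ℝ g) x (e i) (e i)| ≤ 2 * (ε * kap ι) * s ^ 2 := by
    intro i
    have hu : UniformContinuous fun x => fderiv ℝ (fderiv ℝ g) x (e i) (e i) :=
      HasCompactSupport.uniformContinuous_of_continuous
        (((hg.2.fderiv ℝ).fderiv ℝ).mono fun x hx h0 => hx (by simp [h0]))
        (((cd1 (cd1 hg.1)).continuous.clm_apply continuous_const).clm_apply continuous_const)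
    obtain ⟨δ, hδ, H⟩ := Metric.uniformContinuous_iff.1 hu (ε * kap ι) (mul_pos hε kap_pos)
    have : ∀ᶠ s in 𝓝 (0 : ℝ), |s| * ‖e i‖ < δ :=
      (by fun_prop : Continuous fun s : ℝ => |s| * ‖e i‖).continuousAt.eventually_lt continuousAt_const
        (by simpa using hδ)
    filter_upwards [this] with s hs x
    refine second_diff hg.1 x (e i) fun r hr => (H ?_).le
    rw [dist_self_add_left, norm_smul, Real.norm_eq_abs]
    exact lt_of_le_of_lt (by gcongr) hs
  filter_upwards [eventually_all.2 key] with s hs x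
  have e1 : AA e s g x - g x - kap ι * s ^ 2 * LL e g x = kap ι * ∑ i, (g (x + s • e i) + g (x + (-s) • e i) -
      2 * g x - s ^ 2 * fderiv ℝ (fderiv ℝ g) x (e i) (e i)) := by
    rw [AA_apply, smul_eq_mul, LL, Finset.sum_sub_distrib, Finset.sum_sub_distrib, Finset.sum_const,
      Finset.card_univ, nsmul_eq_mul, ← Finset.mul_sum]
    linear_combination (g x) * kap_mul (ι := ι)
  rw [e1, abs_mul, abs_of_pos kap_pos]
  have h2 := (Finset.abs_sum_le_sum_abs _ _).trans (Finset.sum_le_sum fun i (_ : i ∈ Finset.univ) => hs i x)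
  rw [Finset.sum_const, Finset.card_univ, nsmul_eq_mul] at h2
  have h3 : kap ι * (2 * Fintype.card ι) ≤ 1 := by nlinarith [kap_mul (ι := ι), kap_pos (ι := ι)]
  have h4 : 0 ≤ ε * (kap ι * s ^ 2) := by have := kap_pos (ι := ι); positivity
  calc _ ≤ kap ι * (Fintype.card ι * (2 * (ε * kap ι) * s ^ 2)) := mul_le_mul_of_nonneg_left h2 kap_pos.le
    _ = kap ι * (2 * Fintype.card ι) * (ε * (kap ι * s ^ 2)) := by ring
    _ ≤ _ := mul_le_of_le_one_left h4 h3

theorem step_bd {g : E → ℝ} (hg : CC g) : ∃ C, 0 ≤ C ∧ ∀ᶠ s in 𝓝 (0 : ℝ), ∀ x,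
    |AA e s g x - g x| ≤ C * (kap ι * s ^ 2) := by
  obtain ⟨C, hC⟩ := (hg.ll e).1.continuous.bounded_above_of_compact_support (hg.ll e).2
  refine ⟨C + 1, by have := (norm_nonneg _).trans (hC 0); linarith, ?_⟩
  filter_upwards [taylor e hg one_pos] with s hs x
  have h1 := hs x
  have h2 : |kap ι * s ^ 2 * LL e g x| ≤ kap ι * s ^ 2 * C := by
    have : 0 ≤ kap ι * s ^ 2 := by have := kap_pos (ι := ι); positivity
    rw [abs_mul, abs_of_nonneg this]
    exact mul_le_mul_of_nonneg_left (hC x) this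
  have h3 := abs_add_le (AA e s g x - g x - kap ι * s ^ 2 * LL e g x) (kap ι * s ^ 2 * LL e g x)
  rw [sub_add_cancel] at h3
  linarith

/-- second order expansion of the walk -/
theorem pow_exp (s : ℝ) {g : E → ℝ} {τ η C : ℝ} (hτ : 0 ≤ τ) (hC : 0 ≤ C)
    (h1 : ∀ x, |AA e s g x - g x - τ * LL e g x| ≤ η) (h2 : ∀ x, |AA e s (LL e g) x - LL e g x| ≤ C) (k : ℕ) (x : E) :
    |(AA e s ^ k) g x - g x - k * τ * LL e g x| ≤ k * η + k ^ 2 * τ * C := by
  induction k with
  | zero => simp
  | succ k ih =>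
    have a1 := pow_abs e s k (g := AA e s g - g - τ • LL e g) h1 x
    rw [map_sub, map_sub, map_smul, ← Module.End.mul_apply, ← pow_succ] at a1
    simp only [Pi.sub_apply, Pi.smul_apply, smul_eq_mul] at a1
    have a2 := mul_le_mul_of_nonneg_left (pow_sub e s k h2 x) hτ
    rw [← abs_of_nonneg hτ, ← abs_mul, abs_of_nonneg hτ] at a2
    have a3 : 0 ≤ (k + 1 : ℝ) * (τ * C) := by positivity
    rw [abs_le] at *
    push_cast
    constructor <;> nlinarith

/-- maximum principle for the implicit scheme -/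
theorem max_prin (s : ℝ) {φ f : E → ℝ} {K : Set E} (hK : IsCompact K) (husc : UpperSemicontinuousOn φ K) {c : ℝ}
    (h : ∀ w ∈ interior K, ∀ q : E → ℝ, ContDiffAt ℝ 2 q w → IsLocalMax (fun x => φ x - q x) w → c ≤ LL e q w)
    (hf : CC f) {τ η C : ℝ} (hτ : 0 ≤ τ) (h1 : ∀ x, |AA e s f x - f x - τ * LL e f x| ≤ η)
    (h2 : ∀ x, |AA e s (LL e f) x - LL e f x| ≤ C) (h0 : ∀ x ∈ K, φ x ≤ f x) {N : ℕ}
    (hb : ∀ k ≤ N, ∀ x ∈ K, x ∉ interior K → φ x + k * (c * τ - η - τ * C) ≤ (AA e s ^ k) f x) :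
    ∀ k ≤ N, ∀ x ∈ K, φ x + k * (c * τ - η - τ * C) ≤ (AA e s ^ k) f x := by
  intro k
  induction k with
  | zero => intro _ x hx; simpa using h0 x hx
  | succ k ih =>
    intro hk x hx
    have hg := hf.pow e s (k + 1)
    obtain ⟨w, hw, hm⟩ := UpperSemicontinuousOn.exists_isMaxOn ⟨x, hx⟩ hK
      (husc.add (hg.1.continuous.neg.continuousOn.upperSemicontinuousOn))
    have hx' : φ x + -(AA e s ^ (k + 1)) f x ≤ φ w + -(AA e s ^ (k + 1)) f w := hm hx
    by_cases hi : w ∈ interior K
    · have a0 := h w hi _ (hg.1.contDiffAt.of_le (by norm_cast))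
        (by have := hm.isLocalMax (mem_interior_iff_mem_nhds.1 hi); simp only [sub_eq_add_neg]; exact this)
      have a1 := pow_abs e s k (g := AA e s f - f - τ • LL e f) h1 w
      rw [map_sub, map_sub, map_smul, ← Module.End.mul_apply, ← pow_succ] at a1
      have a2 := pow_abs e s k (g := AA e s (LL e f) - LL e f) h2 w
      rw [map_sub, ← Module.End.mul_apply, ← pow_succ] at a2
      rw [LL_pow e s _ hf] at a0
      simp only [Pi.sub_apply, Pi.smul_apply, smul_eq_mul] at a1 a2
      have a3 := ih (Nat.le_of_succ_le hk) w hw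
      have a4 := mul_le_mul_of_nonneg_left ((abs_le.1 a2).2) hτ
      have a5 := mul_le_mul_of_nonneg_left a0 hτ
      have a6 := (abs_le.1 a1).1
      push_cast
      nlinarith
    · have := hb _ hk w hw hi
      linarith

variable [FiniteDimensional ℝ E] [MeasurableSpace E] [BorelSpace E] (μ : Measure E) [μ.IsAddHaarMeasure]

theorem CC.int {g : E → ℝ} (hg : CC g) {h : E → ℝ} (hh : Continuous h) : Integrable (fun x => g x * h x) μ :=
  (hg.1.continuous.mul hh).integrable_of_hasCompactSupport hg.2.mul_right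

theorem AA_adj (s : ℝ) {g h : E → ℝ} (hg : CC g) (hh : CC h) :
    ∫ x, AA e s g x * h x ∂μ = ∫ x, g x * AA e s h x ∂μ := by
  have key : ∀ {g h : E → ℝ}, CC g → CC h → ∫ x, g x * AA e s h x ∂μ = kap ι * ((∫ x, g x * h x ∂μ) +
      ∑ i, ((∫ x, g x * h (x + s • e i) ∂μ) + ∫ x, g x * h (x + (-s) • e i) ∂μ)) := by
    intro g h hg hh
    have i1 : ∀ a, Integrable (fun x => g x * h (x + a)) μ := fun a =>
      hg.int μ (hh.1.continuous.comp (continuous_id.add continuous_const))
    have i2 : ∀ a b, Integrable (fun x => g x * h (x + a) + g x * h (x + b)) μ := fun a b => (i1 a).add (i1 b)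
    simp only [← integral_add (i1 _) (i1 _)]
    rw [← integral_finsetSum _ fun i _ => i2 _ _, ← integral_add (hg.int μ hh.1.continuous)
      (integrable_finsetSum _ fun i _ => i2 _ _), ← integral_const_mul]
    congr 1; ext x
    simp only [AA_apply, smul_eq_mul, ← mul_add, ← Finset.mul_sum]
    ring
  have sw : ∀ a, ∫ x, h x * g (x + a) ∂μ = ∫ x, g x * h (x + -a) ∂μ := fun a => by
    rw [← integral_add_right_eq_self (fun x => g x * h (x + -a)) a]
    simp [mul_comm]
  simp only [mul_comm (AA e s g _)]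
  rw [key hh hg, key hg hh]
  simp only [sw]
  simp only [neg_smul, neg_neg]
  congr 2
  · simp only [mul_comm]
  · exact Finset.sum_congr rfl fun i _ => add_comm _ _

theorem pow_adj (s : ℝ) (k : ℕ) {g h : E → ℝ} (hg : CC g) (hh : CC h) :
    ∫ x, (AA e s ^ k) g x * h x ∂μ = ∫ x, g x * (AA e s ^ k) h x ∂μ := by
  induction k generalizing h with
  | zero => rfl
  | succ k ih =>
    conv_lhs => rw [pow_succ', Module.End.mul_apply]
    rw [AA_adj e μ s (hg.pow e s k) hh, ih (hh.aa e s), pow_succ, Module.End.mul_apply]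

theorem int_LL {g : E → ℝ} (hg : CC g) : ∫ x, LL e g x ∂μ = 0 := by
  have h1 : ∀ i, ContDiff ℝ ∞ fun x => fderiv ℝ g x (e i) := fun i => (cd1 hg.1).clm_apply contDiff_const
  have h2 : ∀ i, HasCompactSupport fun x => fderiv ℝ g x (e i) := fun i => hg.2.fderiv_apply ℝ (e i)
  have h3 : ∀ i, Integrable (fun x => fderiv ℝ (fun x => fderiv ℝ g x (e i)) x (e i)) μ := fun i =>
    ((cd1 (h1 i)).continuous.clm_apply continuous_const).integrable_of_hasCompactSupport ((h2 i).fderiv_apply ℝ _)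
  have h4 : LL e g = fun x => ∑ i, fderiv ℝ (fun x => fderiv ℝ g x (e i)) x (e i) := by
    ext x
    refine Finset.sum_congr rfl fun i _ => ?_
    rw [fderiv_clm_apply ((cd1 hg.1).differentiable (by simp) x) (differentiableAt_const _)]
    simp
  rw [h4, integral_finsetSum _ fun i _ => h3 i]
  refine Finset.sum_eq_zero fun i _ => ?_
  have := integral_smul_fderiv_eq_neg_fderiv_smul_of_integrable (μ := μ)
    (f := fun _ : E => (1 : ℝ)) (g := fun x => fderiv ℝ g x (e i)) (v := e i) (by simp)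
    (by simpa using h3 i) (by simpa using (h1 i).continuous.integrable_of_hasCompactSupport (h2 i))
    (fun x _ => differentiableAt_const _) (fun x _ => (h1 i).differentiable (by simp) x)
  simpa using this

end Crest.Agent.R269.V1
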